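import Vale.Agent.P011LD.Desc

/-!
Hilbert 90 for matrices, scalars and permutation tori; projective actions with the same scalar
cocycle are conjugate.
-/

open Matrix

namespace Vale.Agent.P011LD

variable {k K : Type} [Field k] [Field K] [Algebra k K] {Γ : Subgroup (K ≃ₐ[k] K)}
  {m n : Type} [Fintype m] [DecidableEq m] [Fintype n] [DecidableEq n]

/-- The property `P` holds on an open subgroup of `Γ`. -/
def Op (Γ : Subgroup (K ≃ₐ[k] K)) (P : (K ≃ₐ[k] K) → Prop) : Prop :=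
  ∃ S : Finset K, ∀ σ ∈ Γ, (∀ x ∈ S, σ x = x) → P σ

theorem Op.and {P Q : (K ≃ₐ[k] K) → Prop} (h : Op Γ P) (h' : Op Γ Q) : Op Γ fun σ => P σ ∧ Q σ := by
  classical
  obtain ⟨S, hS⟩ := h
  obtain ⟨T, hT⟩ := h'
  exact ⟨S ∪ T, fun σ s e => ⟨hS σ s fun x m => e x (Finset.mem_union_left _ m),
    hT σ s fun x m => e x (Finset.mem_union_right _ m)⟩⟩

theorem Op.imp {P Q : (K ≃ₐ[k] K) → Prop} (h : Op Γ P) (i : ∀ σ ∈ Γ, P σ → Q σ) : Op Γ Q :=
  h.elim fun S hS => ⟨S, fun σ s e => i σ s (hS σ s e)⟩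

theorem Op.all {J : Type} [Finite J] {P : J → (K ≃ₐ[k] K) → Prop} (h : ∀ j, Op Γ (P j)) :
    Op Γ fun σ => ∀ j, P j σ := by
  classical
  choose S hS using h
  have := Fintype.ofFinite J
  exact ⟨Finset.univ.biUnion S, fun σ s e j => hS j σ s fun x m =>
    e x (Finset.mem_biUnion.2 ⟨j, Finset.mem_univ j, m⟩)⟩

theorem Op.fix (Γ : Subgroup (K ≃ₐ[k] K)) (c : K) : Op Γ fun σ => σ c = c :=
  ⟨{c}, fun _ _ e => e c (Finset.mem_singleton_self c)⟩

theorem Op.vec (Γ : Subgroup (K ≃ₐ[k] K)) {J : Type} [Finite J] (v : J → K) :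
    Op Γ fun σ => σ ∘ v = v := (Op.all fun j => Op.fix Γ (v j)).imp fun _ _ e => funext e

omit [DecidableEq m] [DecidableEq n] in
theorem Op.mat (Γ : Subgroup (K ≃ₐ[k] K)) (M : Matrix m n K) : Op Γ fun σ => M.map σ = M :=
  (Op.all fun i => Op.all fun j => Op.fix Γ (M i j)).imp fun _ _ e => Matrix.ext e

/-- A finite extension gives an open subgroup. -/
theorem Op.of_field (F : IntermediateField k K) [FiniteDimensional k F] {P : (K ≃ₐ[k] K) → Prop}
    (h : ∀ σ ∈ Γ, (∀ x ∈ F, σ x = x) → P σ) : Op Γ P := by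
  classical
  let b := Module.finBasis k F
  refine ⟨Finset.univ.image fun i => (b i).1, fun σ s e => h σ s fun x hx => ?_⟩
  have := congrArg Subtype.val (b.sum_repr ⟨x, hx⟩)
  simp only [IntermediateField.coe_sum, IntermediateField.coe_smul] at this
  rw [← this, map_sum]
  exact Finset.sum_congr rfl fun i _ => by
    rw [map_smul, e _ (Finset.mem_image_of_mem _ (Finset.mem_univ i))]

theorem map_mul' (σ : K ≃ₐ[k] K) {l m n : Type} [Fintype m] (A : Matrix l m K)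
    (B : Matrix m n K) :
    (A * B).map σ = A.map σ * B.map σ := Matrix.map_mul (f := (σ : K →+* K))

theorem map_smul' (σ : K ≃ₐ[k] K) {l l' : Type} (c : K) (A : Matrix l l' K) :
    (c • A).map σ = σ c • A.map σ := Matrix.ext fun _ _ => map_mul σ _ _

theorem map_one' (σ : K ≃ₐ[k] K) {n : Type} [DecidableEq n] : (1 : Matrix n n K).map σ = 1 :=
  Matrix.map_one _ (map_zero σ) (map_one σ)

/-- Two projective actions with the same scalar cocycle: the action on the matrices. -/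
theorem sl_hom (A : (K ≃ₐ[k] K) → GL n K) (B : (K ≃ₐ[k] K) → GL m K)
    (h : ∀ σ ∈ Γ, ∀ τ ∈ Γ, ∃ c : K, (A σ).1 * (A τ).1.map σ = c • (A (σ * τ)).1 ∧
      (B σ).1 * (B τ).1.map σ = c • (B (σ * τ)).1)
    (hc : Op Γ fun σ => ∃ c : K, (A σ).1 = c • 1 ∧ (B σ).1 = c • 1) [Nonempty n] :
    Sl Γ fun σ (M : Matrix m n K) => (B σ).1 * M.map σ * (A σ)⁻¹.1 := by
  have can : ∀ (σ) (M N : Matrix m n K), M * (A σ).1 = N → M = N * (A σ)⁻¹.1 := fun σ M N e => by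
    rw [← e, Matrix.mul_assoc, Units.mul_inv, Matrix.mul_one]
  refine ⟨fun σ _ M N => ?_, fun σ _ c M => ?_, fun σ s τ t M => ?_, fun M => ?_⟩
  · rw [Matrix.map_add _ (map_add σ), Matrix.mul_add, Matrix.add_mul]
  · rw [map_smul', Matrix.mul_smul, Matrix.smul_mul]
  · obtain ⟨c, h1, h2⟩ := h σ s τ t
    have i1 : (A τ)⁻¹.1.map σ * (A τ).1.map σ = 1 := by rw [← map_mul', Units.inv_mul, map_one']
    have i2 : (A τ).1.map σ * (A τ)⁻¹.1.map σ = 1 := by rw [← map_mul', Units.mul_inv, map_one']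
    have c0 : c ≠ 0 := by
      rintro rfl
      have := congrArg (fun X => (A σ)⁻¹.1 * X * (A τ)⁻¹.1.map σ) h1
      simp only [← Matrix.mul_assoc, Units.inv_mul, Matrix.one_mul, i2, zero_smul, Matrix.mul_zero,
        Matrix.zero_mul] at this
      exact one_ne_zero this
    refine (can _ _ _ (smul_right_injective _ c0 ?_)).symm
    show c • _ = c • _
    rw [← Matrix.mul_smul, ← h1, ← Matrix.smul_mul, ← h2, map_mul', map_mul']
    simp only [Matrix.mul_assoc, Units.inv_mul_cancel_left, i1, Matrix.mul_one]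
    rfl
  · obtain ⟨S, hS⟩ := hc.and (Op.mat Γ M)
    refine ⟨S, fun σ s e => ?_⟩
    obtain ⟨⟨c, h1, h2⟩, h3⟩ := hS σ s e
    refine (can _ _ _ ?_).symm
    rw [h1, h2, h3, Matrix.mul_smul, Matrix.smul_mul, Matrix.mul_one, Matrix.one_mul]

/-- **Projective actions with the same scalar cocycle are conjugate.** -/
theorem conj_of [Algebra.IsAlgebraic k K] [Infinite k] (A B : (K ≃ₐ[k] K) → GL n K)
    (h : ∀ σ ∈ Γ, ∀ τ ∈ Γ, ∃ c : K, (A σ).1 * (A τ).1.map σ = c • (A (σ * τ)).1 ∧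
      (B σ).1 * (B τ).1.map σ = c • (B (σ * τ)).1)
    (hc : Op Γ fun σ => ∃ c : K, (A σ).1 = c • 1 ∧ (B σ).1 = c • 1) :
    ∃ g : GL n K, ∀ σ ∈ Γ, g.1 * (A σ).1 = (B σ).1 * g.1.map σ := by
  rcases isEmpty_or_nonempty n with e | e
  · exact ⟨1, fun _ _ => Subsingleton.elim _ _⟩
  obtain ⟨g, hg, d⟩ := (sl_hom A B h hc).dn.den (LP.det fun i j => LP.entry i j) ⟨1, by simp⟩
  refine ⟨GeneralLinearGroup.mkOfDetNeZero g d, fun σ s => ?_⟩
  show g * _ = _ * g.map σ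
  conv_lhs => rw [← hg σ s]
  rw [Matrix.mul_assoc, Units.inv_mul, Matrix.mul_one]

/-- The action on vectors given by a cocycle. -/
theorem sl_vec (A : (K ≃ₐ[k] K) → Matrix n n K)
    (h : ∀ σ ∈ Γ, ∀ τ ∈ Γ, A (σ * τ) = A σ * (A τ).map σ) (hc : Op Γ fun σ => A σ = 1) :
    Sl Γ fun σ (v : n → K) => A σ *ᵥ (σ ∘ v) := by
  refine ⟨fun σ _ v w => ?_, fun σ _ c v => ?_, fun σ s τ t v => ?_, fun v => ?_⟩
  · rw [← mulVec_add]
    exact congrArg _ (funext fun i => map_add σ _ _)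
  · rw [← mulVec_smul]
    exact congrArg _ (funext fun i => map_mul σ _ _)
  · rw [h σ s τ t, ← mulVec_mulVec]
    exact congrArg _ (funext fun i => (RingHom.map_mulVec (σ : K →+* K) (A τ) (τ ∘ v) i).symm)
  · obtain ⟨S, hS⟩ := hc.and (Op.vec Γ v)
    exact ⟨S, fun σ s e => by rw [(hS σ s e).1, (hS σ s e).2, one_mulVec]⟩

variable [Algebra.IsAlgebraic k K]

/-- **Hilbert 90** for the general linear group. -/
theorem h90 (A : (K ≃ₐ[k] K) → Matrix n n K)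
    (h : ∀ σ ∈ Γ, ∀ τ ∈ Γ, A (σ * τ) = A σ * (A τ).map σ) (hc : Op Γ fun σ => A σ = 1) :
    ∃ g : GL n K, ∀ σ ∈ Γ, A σ * g.1.map σ = g.1 := by
  obtain ⟨b, hb⟩ := (sl_vec A h hc).basis (ι := n) (by simp)
  refine ⟨((Matrix.linearIndependent_cols_iff_isUnit (A := (Matrix.of fun i j => b j i))).1
    b.linearIndependent).unit, fun σ s => Matrix.ext fun i j => congrFun (hb j σ s) i⟩

/-- **Hilbert 90** for the multiplicative group. -/
theorem h90_one (c : (K ≃ₐ[k] K) → K) (h : ∀ σ ∈ Γ, ∀ τ ∈ Γ, c (σ * τ) = c σ * σ (c τ))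
    (hc : Op Γ fun σ => c σ = 1) : ∃ b : K, b ≠ 0 ∧ ∀ σ ∈ Γ, c σ * σ b = b := by
  have S : Sl Γ fun σ (v : K) => c σ * σ v :=
    ⟨fun σ _ v w => by rw [map_add, mul_add], fun σ _ x v => by simp only [smul_eq_mul, map_mul]; ring,
      fun σ s τ t v => by rw [h σ s τ t, map_mul, mul_assoc]; rfl,
      fun v => (hc.and (Op.fix Γ v)).imp fun σ _ e => by rw [e.1, e.2, one_mul]⟩
  obtain ⟨v, -, h1, h2⟩ := S.exists_ne ⊤ (fun _ _ _ _ => trivial) top_ne_bot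
  exact ⟨v, h1, h2⟩

/-- **Hilbert 90** for permutation tori. -/
theorem h90_perm [Infinite k] {J : Type} [Fintype J] (π : (K ≃ₐ[k] K) → Equiv.Perm J)
    (hπ : ∀ σ ∈ Γ, ∀ τ ∈ Γ, π (σ * τ) = π σ * π τ) (c : (K ≃ₐ[k] K) → J → K)
    (h : ∀ σ ∈ Γ, ∀ τ ∈ Γ, ∀ j, c (σ * τ) j = c σ j * σ (c τ ((π σ).symm j)))
    (hc : Op Γ fun σ => π σ = 1 ∧ ∀ j, c σ j = 1) :
    ∃ b : J → K, (∀ j, b j ≠ 0) ∧ ∀ σ ∈ Γ, ∀ j, c σ j * σ (b ((π σ).symm j)) = b j := by
  classical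
  have S : Sl Γ fun σ (v : J → K) j => c σ j * σ (v ((π σ).symm j)) :=
    ⟨fun σ _ v w => funext fun j => by simp only [Pi.add_apply, map_add, mul_add],
      fun σ _ x v => funext fun j => by simp only [Pi.smul_apply, smul_eq_mul, map_mul]; ring,
      fun σ s τ t v => funext fun j => by rw [h σ s τ t, hπ σ s τ t, map_mul, mul_assoc]; rfl,
      fun v => (hc.and (Op.vec Γ v)).imp fun σ _ e => funext fun j => by
        rw [e.1.1, e.1.2, one_mul]; exact congrFun e.2 j⟩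
  obtain ⟨v, h1, h2⟩ := S.dn.dens Finset.univ (f := fun j v => v j) (fun j _ => LP.proj j)
    fun j _ => ⟨1, one_ne_zero⟩
  exact ⟨v, fun j => h2 j (Finset.mem_univ j), fun σ s j => congrFun (h1 σ s) j⟩

end Vale.Agent.P011LD
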