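import Vale.Agent.P011LD.H90
import Vale.Agent.P011.Arith.SUnit

/-!
Approximation at the real places for the fixed points of a semilinear action.
-/

open Polynomial Filter Topology

namespace Vale.Agent.P011LD

variable {k K : Type} [Field k] [Field K] [Algebra k K] {V : Type} [AddCommGroup V] [Module K V]
  {w : K →+* ℂ} {κ : K ≃ₐ[k] K} {U U' : Set V}

/-- The set is open on the real lines. -/
def LO (w : K →+* ℂ) (U : Set V) : Prop :=
  ∀ x ∈ U, ∀ v : V, ∃ δ > 0, ∀ r : K, (w r).im = 0 → |(w r).re| < δ → x + r • v ∈ U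

theorem LO.univ : LO w (Set.univ : Set V) := fun _ _ _ => ⟨1, one_pos, fun _ _ _ => trivial⟩

theorem LO.inter (h : LO w U) (h' : LO w U') : LO w (U ∩ U') := fun x m v => by
  obtain ⟨δ, h1, h2⟩ := h x m.1 v
  obtain ⟨ε, h3, h4⟩ := h' x m.2 v
  exact ⟨min δ ε, lt_min h1 h3, fun r e l =>
    ⟨h2 r e (l.trans_le (min_le_left _ _)), h4 r e (l.trans_le (min_le_right _ _))⟩⟩

theorem LO.union (h : LO w U) (h' : LO w U') : LO w (U ∪ U') := fun x m v => m.elim
  (fun m => (h x m v).imp fun _ e => ⟨e.1, fun r e1 e2 => Or.inl (e.2 r e1 e2)⟩)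
  fun m => (h' x m v).imp fun _ e => ⟨e.1, fun r e1 e2 => Or.inr (e.2 r e1 e2)⟩

theorem LO.iUnion {ι : Type} {U : ι → Set V} (h : ∀ i, LO w (U i)) : LO w (⋃ i, U i) :=
  fun x m v => by
    obtain ⟨i, m⟩ := Set.mem_iUnion.1 m
    exact (h i x m v).imp fun _ e => ⟨e.1, fun r e1 e2 => Set.mem_iUnion.2 ⟨i, e.2 r e1 e2⟩⟩

/-- Open conditions on the values of a polynomial in `x` and its conjugate. -/
theorem LO.of_open {W : Type} [AddCommGroup W] [Module K W]
    (hκ : ∀ x, w (κ x) = starRingEnd ℂ (w x)) {f : V × W → K} (hf : LP f) {p : V → W}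
    (p1 : ∀ x y, p (x + y) = p x + p y) (p2 : ∀ (t : K) x, p (t • x) = κ t • p x) {O : Set ℂ}
    (hO : IsOpen O) : LO w {x | w (f (x, p x)) ∈ O} := fun x m v => by
  obtain ⟨q, hq⟩ := hf (x, p x) (v, p v)
  have c : Continuous fun t : ℝ => (q.map w).eval (t : ℂ) :=
    (q.map w).continuous.comp Complex.continuous_ofReal
  have e : ∀ r : K, (q.map w).eval (w r) = w (q.eval r) := fun r => by rw [eval_map, eval₂_hom]
  obtain ⟨δ, h1, h2⟩ := Metric.isOpen_iff.1 (hO.preimage c) 0 (by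
    have := e 0
    rw [← hq, zero_smul, add_zero, map_zero] at this
    simpa [this] using m)
  refine ⟨δ, h1, fun r e1 e2 => ?_⟩
  have e3 : κ r = r := w.injective (by rw [hκ, Complex.conj_eq_iff_im.2 e1])
  have := h2 (show (w r).re ∈ Metric.ball 0 δ by simpa using e2)
  rw [Set.mem_preimage, Complex.conj_eq_iff_re.1 (Complex.conj_eq_iff_im.2 e1), e, ← hq] at this
  simpa only [Set.mem_ofPred_eq, p1, p2, e3, Prod.smul_mk, Prod.mk_add_mk] using this

theorem LO.of_lp {W : Type} [AddCommGroup W] [Module K W]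
    (hκ : ∀ x, w (κ x) = starRingEnd ℂ (w x)) {f : V × W → K} (hf : LP f) {p : V → W}
    (p1 : ∀ x y, p (x + y) = p x + p y) (p2 : ∀ (t : K) x, p (t • x) = κ t • p x) :
    LO w {x | 0 < (w (f (x, p x))).re} :=
  LO.of_open hκ hf p1 p2 (isOpen_lt continuous_const Complex.continuous_re)

variable [NumberField k]

/-- Weak approximation at the real places. -/
theorem real_apx (z δ : (k →+* ℝ) → ℝ) (hδ : ∀ φ, 0 < δ φ) : ∃ t : k, ∀ φ, |φ t - z φ| < δ φ := by
  choose q hq using fun φ => exists_rat_near (z φ) (half_pos (hδ φ))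
  obtain ⟨t, ht⟩ := P011.Arith.approx (F := k) (Set.range Sum.inr) (Set.finite_range _)
    (Sum.elim 0 fun φ => q φ) (Sum.elim 1 fun φ => δ φ / 2)
    (by rintro (v | φ); exacts [one_pos, half_pos (hδ φ)])
  refine ⟨t, fun φ => ?_⟩
  have := ht _ ⟨φ, rfl⟩
  simp only [P011.Arith.plAbv_inr, Sum.elim_inr, map_sub, map_ratCast] at this
  linarith [abs_sub_le (φ t) (q φ) (z φ), abs_sub_comm (z φ) (q φ), hq φ]

/-- Approximation of real linear combinations by rational ones. -/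
theorem apx_sum {ι : Type} (B : ι → V) (P : Set (k →+* ℝ)) (w : (k →+* ℝ) → K →+* ℂ)
    (hw : ∀ φ ∈ P, ∀ t, w φ (algebraMap k K t) = φ t) (U : (k →+* ℝ) → Set V)
    (hU : ∀ φ ∈ P, LO (w φ) (U φ)) (s : Finset ι) (x : V) (r : (k →+* ℝ) → ι → K)
    (h1 : ∀ φ ∈ P, ∀ i, (w φ (r φ i)).im = 0) (h2 : ∀ φ ∈ P, x + ∑ i ∈ s, r φ i • B i ∈ U φ) :
    ∃ u : ι → k, ∀ φ ∈ P, x + ∑ i ∈ s, algebraMap k K (u i) • B i ∈ U φ := by
  classical
  induction s using Finset.induction_on generalizing x with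
  | empty => exact ⟨0, h2⟩
  | insert j s hj ih =>
    choose! δ h3 h4 using fun φ m => hU φ m _ (h2 φ m) (B j)
    obtain ⟨t, ht⟩ := real_apx (fun φ => (w φ (r φ j)).re) (fun φ => if φ ∈ P then δ φ else 1)
      fun φ => by split_ifs with m; exacts [h3 φ m, one_pos]
    obtain ⟨u, hu⟩ := ih (x + algebraMap k K t • B j) fun φ m => by
      have := h4 φ m (algebraMap k K t - r φ j) (by simp [hw φ m, h1 φ m])
        (by simpa [hw φ m, m] using ht φ)
      rw [Finset.sum_insert hj] at this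
      convert this using 1
      module
    refine ⟨Function.update u j t, fun φ m => ?_⟩
    rw [Finset.sum_insert hj, Function.update_self, ← add_assoc, Finset.sum_congr rfl fun i l => by
      rw [Function.update_of_ne (ne_of_mem_of_not_mem l hj)]]
    exact hu φ m

/-- **Approximation** over a quadratic extension which is complex at the given places. -/
theorem apx [IsGalois k K] [FiniteDimensional K V] {Γ : Subgroup (K ≃ₐ[k] K)}
    {a : (K ≃ₐ[k] K) → V → V} (h : Sl Γ a) {d : K} (d0 : d ≠ 0) (hd : ∀ σ ∈ Γ, σ d = d)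
    (P : Set (k →+* ℝ)) (w : (k →+* ℝ) → K →+* ℂ) (κ : (k →+* ℝ) → K ≃ₐ[k] K)
    (hw : ∀ φ ∈ P, ∀ t, w φ (algebraMap k K t) = φ t)
    (hκ : ∀ φ ∈ P, ∀ x, w φ (κ φ x) = starRingEnd ℂ (w φ x)) (hκd : ∀ φ ∈ P, κ φ d = -d)
    (U : (k →+* ℝ) → Set V) (hU : ∀ φ ∈ P, LO (w φ) (U φ)) (hn : ∀ φ ∈ P, (U φ).Nonempty)
    {W : Type} [AddCommGroup W] [Module K W] {g : V × W → K} (hg : LP g) {p : V → W}
    (p1 : ∀ x y, p (x + y) = p x + p y)
    (p2 : ∀ (t : k) x, p (algebraMap k K t • x) = algebraMap k K t • p x)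
    (h0 : ∃ y ∈ Fx Γ a, g (y, p y) ≠ 0) :
    ∃ x ∈ Fx Γ a, (∀ φ ∈ P, x ∈ U φ) ∧ g (x, p x) ≠ 0 := by
  have : CharZero K := charZero_of_injective_algebraMap (algebraMap k K).injective
  obtain ⟨b, hb⟩ := h.basis (ι := Fin (Module.finrank K V)) (Fintype.card_fin _)
  choose! z hz using hn
  have im : ∀ φ ∈ P, ∀ c, κ φ c = c → (w φ c).im = 0 := fun φ m c e =>
    Complex.conj_eq_iff_im.1 (by rw [← hκ φ m, e])
  have kk : ∀ φ ∈ P, ∀ c, κ φ (κ φ c) = c := fun φ m c => (w φ).injective (by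
    rw [hκ φ m, hκ φ m, Complex.conj_conj])
  obtain ⟨u, hu⟩ := apx_sum (Sum.elim b fun i => d • b i) P w hw U hU Finset.univ 0
    (fun φ => Sum.elim (fun i => (b.repr (z φ) i + κ φ (b.repr (z φ) i)) / 2)
      fun i => (b.repr (z φ) i - κ φ (b.repr (z φ) i)) / (2 * d))
    (fun φ m i => im φ m _ (by
      rcases i with i | i
      · simp [kk φ m, map_ofNat, add_comm]
      · simp only [Sum.elim_inr, map_div₀, map_sub, kk φ m, map_mul, map_ofNat, hκd φ m]
        field_simp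
        ring))
    fun φ m => by
      convert hz φ m using 1
      rw [zero_add, Fintype.sum_sum_type, ← Finset.sum_add_distrib]
      refine (Finset.sum_congr rfl fun i _ => ?_).trans (b.sum_repr _)
      simp only [Sum.elim_inl, Sum.elim_inr, smul_smul, ← add_smul]
      congr 1
      field_simp
      ring
  obtain ⟨x, hx⟩ : ∃ x, x = 0 + ∑ i, algebraMap k K (u i) • Sum.elim b (fun i => d • b i) i :=
    ⟨_, rfl⟩
  have x1 : x ∈ Fx Γ a := fun σ m => by
    rw [hx, zero_add, h.sum m]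
    refine Finset.sum_congr rfl fun i _ => ?_
    rcases i with i | i <;> simp [h.smul σ m, hb i σ m, hd σ m]
  rw [← hx] at hu
  obtain ⟨y, y1, y2⟩ := h0
  have y3 : y - x ∈ Fx Γ a := fun σ m => by rw [h.sub m, y1 σ m, x1 σ m]
  have fin := hg.fin (k := k) (x := (x, p x)) (y := (y - x, p (y - x))) (t0 := 1) (by
    simpa [← p1] using y2)
  choose! δ h3 h4 using fun φ m => hU φ m x (hu φ m) (y - x)
  have ev : ∀ᶠ n : ℕ in cofinite, ∀ φ ∈ P, |φ ((n : k) + 1)⁻¹| < δ φ := by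
    rw [Nat.cofinite_eq_atTop]
    refine (eventually_all_finite P.toFinite).2 fun φ m => ?_
    refine (tendsto_one_div_add_atTop_nhds_zero_nat.eventually (gt_mem_nhds (h3 φ m))).mono
      fun n e => ?_
    rw [map_inv₀, map_add, map_natCast, map_one, abs_of_pos (by positivity)]
    simpa using e
  obtain ⟨n, n1, n2⟩ := (ev.and (fin.preimage (f := fun n : ℕ => ((n : k) + 1)⁻¹)
    fun m _ n _ e => by simpa using e).compl_mem_cofinite).exists
  refine ⟨_, h.add_mem x1 (h.dn.smul ((n : k) + 1)⁻¹ _ y3), fun φ m => h4 φ m _ ?_ ?_, ?_⟩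
  · rw [hw φ m, Complex.ofReal_im]
  · rw [hw φ m, Complex.ofReal_re]
    exact n1 φ m
  · rw [p1, p2]
    exact n2

end Vale.Agent.P011LD
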