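import Mathlib.FieldTheory.Galois.Infinite
import Mathlib.LinearAlgebra.Dual.Lemmas
import Mathlib.LinearAlgebra.Matrix.GeneralLinearGroup.Defs
import Mathlib.LinearAlgebra.Matrix.ToLin

/-!
Galois descent for semilinear actions and density of the fixed points.
-/

open Matrix Polynomial

namespace Vale.Agent.P011LD

variable {k K : Type} [Field k] [Field K] [Algebra k K]
  {V : Type} [AddCommGroup V] [Module K V] {Γ : Subgroup (K ≃ₐ[k] K)}

/-- A continuous semilinear action of the group `Γ`. -/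
structure Sl (Γ : Subgroup (K ≃ₐ[k] K)) (a : (K ≃ₐ[k] K) → V → V) : Prop where
  add : ∀ σ ∈ Γ, ∀ v w, a σ (v + w) = a σ v + a σ w
  smul : ∀ σ ∈ Γ, ∀ (c : K) v, a σ (c • v) = σ c • a σ v
  mul : ∀ σ ∈ Γ, ∀ τ ∈ Γ, ∀ v, a (σ * τ) v = a σ (a τ v)
  cont : ∀ v, ∃ S : Finset K, ∀ σ ∈ Γ, (∀ x ∈ S, σ x = x) → a σ v = v

/-- The fixed points. -/
def Fx (Γ : Subgroup (K ≃ₐ[k] K)) (a : (K ≃ₐ[k] K) → V → V) : Set V := {v | ∀ σ ∈ Γ, a σ v = v}

variable {a : (K ≃ₐ[k] K) → V → V}

/-- The additive map. -/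
def Sl.hom (h : Sl Γ a) {σ : K ≃ₐ[k] K} (hσ : σ ∈ Γ) : V →+ V := AddMonoidHom.mk' (a σ) (h.add σ hσ)

theorem Sl.one (h : Sl Γ a) (v : V) : a 1 v = v :=
  (h.cont v).elim fun _ hS => hS 1 Γ.one_mem fun _ _ => rfl

theorem Sl.zero (h : Sl Γ a) {σ : K ≃ₐ[k] K} (hσ : σ ∈ Γ) : a σ 0 = 0 := (h.hom hσ).map_zero

theorem Sl.sum (h : Sl Γ a) {σ : K ≃ₐ[k] K} (hσ : σ ∈ Γ) {ι : Type} (s : Finset ι) (f : ι → V) :
    a σ (∑ i ∈ s, f i) = ∑ i ∈ s, a σ (f i) := map_sum (h.hom hσ) f s

theorem Sl.sub (h : Sl Γ a) {σ : K ≃ₐ[k] K} (hσ : σ ∈ Γ) (v w : V) :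
    a σ (v - w) = a σ v - a σ w := map_sub (h.hom hσ) v w

theorem Sl.neg (h : Sl Γ a) {σ : K ≃ₐ[k] K} (hσ : σ ∈ Γ) (v : V) : a σ (-v) = -a σ v :=
  map_neg (h.hom hσ) v

theorem Sl.mono (h : Sl Γ a) {Γ' : Subgroup (K ≃ₐ[k] K)} (l : Γ' ≤ Γ) : Sl Γ' a :=
  ⟨fun σ s => h.add σ (l s), fun σ s => h.smul σ (l s), fun σ s τ t => h.mul σ (l s) τ (l t),
    fun v => (h.cont v).imp fun _ hS σ s => hS σ (l s)⟩

theorem Sl.add_mem (h : Sl Γ a) {v w : V} (hv : v ∈ Fx Γ a) (hw : w ∈ Fx Γ a) :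
    v + w ∈ Fx Γ a := fun σ s => by rw [h.add σ s, hv σ s, hw σ s]

theorem Sl.smul_mem (h : Sl Γ a) {c : K} (hc : ∀ σ ∈ Γ, σ c = c) {v : V} (hv : v ∈ Fx Γ a) :
    c • v ∈ Fx Γ a := fun σ s => by rw [h.smul σ s, hv σ s, hc σ s]

theorem Sl.zero_mem (h : Sl Γ a) : (0 : V) ∈ Fx Γ a := fun _ s => h.zero s

/-- Independence of the restrictions of automorphisms to a submonoid. -/
theorem dedekind {J : Type} (F : Submonoid K) (σ : J → K ≃ₐ[k] K)
    (hσ : ∀ i j, (∀ x ∈ F, σ i x = σ j x) → i = j) (s : Finset J) (c : J → K)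
    (h : ∀ x ∈ F, ∑ j ∈ s, c j * σ j x = 0) : ∀ j ∈ s, c j = 0 :=
  linearIndependent_iff'.1 ((linearIndependent_monoidHom F K).comp
    (fun j => ((σ j : K →* K).comp F.subtype)) fun i j e =>
      hσ i j fun x hx => DFunLike.congr_fun e ⟨x, hx⟩) s c (funext fun x => by
    simpa [Finset.sum_apply] using h x.1 x.2)

/-- **Descent inside a stable subspace.** -/
theorem Sl.mem_span [Algebra.IsAlgebraic k K] (h : Sl Γ a) (W : Submodule K V)
    (hW : ∀ σ ∈ Γ, ∀ w ∈ W, a σ w ∈ W) {v : V} (hv : v ∈ W) :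
    v ∈ Submodule.span K (Fx Γ a ∩ W) := by
  classical
  obtain ⟨S, hS⟩ := h.cont v
  let N : Subgroup Γ :=
    { carrier := {σ | ∀ x ∈ S, σ.1 x = x}
      mul_mem' := fun {σ τ} hσ hτ x hx => by
        show σ.1 (τ.1 x) = x
        rw [hτ x hx, hσ x hx]
      one_mem' := fun _ _ => rfl
      inv_mem' := fun {σ} hσ x hx => σ.1.injective (by
        rw [hσ x hx]; exact σ.1.apply_symm_apply x) }
  have hq : ∀ q q' : Γ ⧸ N, (∀ x ∈ S, q.out.1 x = q'.out.1 x) → q = q' := fun q q' e => by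
    rw [← q.out_eq', ← q'.out_eq', QuotientGroup.eq]
    exact fun x hx => q.out.1.injective ((q.out.1.apply_symm_apply _).trans (e x hx).symm)
  have : Finite (Γ ⧸ N) := Finite.of_injective
    (fun q => fun x : S => (⟨q.out.1 x, by
      rw [mem_rootSet, aeval_algHom_apply q.out.1, minpoly.aeval, map_zero]
      exact ⟨minpoly.ne_zero (Algebra.IsIntegral.isIntegral _), rfl⟩⟩ :
        (minpoly k x.1).rootSet K)) fun q q' e =>
    hq q q' fun x hx => congrArg Subtype.val (congrFun e ⟨x, hx⟩)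
  have := Fintype.ofFinite (Γ ⧸ N)
  let F : Submonoid K :=
    { carrier := {c | ∀ σ ∈ N, σ.1 c = c}
      mul_mem' := fun hc hd σ s => by rw [map_mul, hc σ s, hd σ s]
      one_mem' := fun σ _ => map_one _ }
  by_contra hcon
  obtain ⟨ψ, hψ, hψ0⟩ := Submodule.exists_dual_map_eq_bot_of_notMem hcon inferInstance
  have key : ∀ c ∈ F, ∀ σ : Γ, a (σ : Γ ⧸ N).out.1 (c • v) = a σ.1 (c • v) := fun c hc σ => by
    obtain ⟨n, e⟩ := QuotientGroup.mk_out_eq_mul N σ
    rw [e, Subgroup.coe_mul, h.mul _ σ.2 _ n.1.2, h.smul _ n.1.2, hc _ n.2, hS _ n.1.2 n.2]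
  have := dedekind F (fun q : Γ ⧸ N => q.out.1) (fun q q' e => hq q q' fun x hx =>
    e x fun σ s => s x hx) Finset.univ (fun q => ψ (a q.out.1 v)) (fun c hc => ?_)
    ((1 : Γ) : Γ ⧸ N) (Finset.mem_univ _)
  · have k1 := key 1 F.one_mem 1
    rw [one_smul] at k1
    exact hψ (by rwa [k1, OneMemClass.coe_one, h.one] at this)
  · have m : ∑ q : Γ ⧸ N, a q.out.1 (c • v) ∈ Fx Γ a ∩ W := by
      refine ⟨fun γ hγ => ?_, W.sum_mem fun q _ => hW _ q.out.2 _ (W.smul_mem c hv)⟩
      rw [h.sum hγ, ← Equiv.sum_comp (MulAction.toPerm (⟨γ, hγ⟩ : Γ))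
        fun q : Γ ⧸ N => a q.out.1 (c • v)]
      refine Finset.sum_congr rfl fun q _ => ?_
      rw [← h.mul _ hγ _ q.out.2, MulAction.toPerm_apply, ← q.out_eq', MulAction.Quotient.smul_mk,
        key c hc, q.out_eq']
      rfl
    have := Submodule.mem_map_of_mem (f := ψ) (Submodule.subset_span (R := K) m)
    rw [hψ0, Submodule.mem_bot, map_sum] at this
    rw [← this]
    exact Finset.sum_congr rfl fun q _ => by rw [h.smul _ q.out.2, map_smul, smul_eq_mul, mul_comm]

/-- **Descent**: the fixed points span. -/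
theorem Sl.span [Algebra.IsAlgebraic k K] (h : Sl Γ a) : Submodule.span K (Fx Γ a) = ⊤ :=
  eq_top_iff.2 fun _ hv => Submodule.span_mono Set.inter_subset_left
    (h.mem_span ⊤ (fun _ _ _ _ => trivial) hv)

/-- A nonzero stable subspace contains a nonzero fixed point. -/
theorem Sl.exists_ne [Algebra.IsAlgebraic k K] (h : Sl Γ a) (W : Submodule K V)
    (hW : ∀ σ ∈ Γ, ∀ w ∈ W, a σ w ∈ W) (h0 : W ≠ ⊥) : ∃ v ∈ W, v ≠ 0 ∧ v ∈ Fx Γ a := by
  by_contra hc
  refine h0 (eq_bot_iff.2 fun v hv => (Submodule.span_le.2 fun w hw => ?_) (h.mem_span W hW hv))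
  by_contra e
  exact hc ⟨w, hw.2, e, hw.1⟩

/-- Fixed points which are independent over the fixed field are independent. -/
theorem Sl.indep (h : Sl Γ a) {ι : Type} {b : ι → V} (hb : ∀ i, b i ∈ Fx Γ a)
    (hi : ∀ (s : Finset ι) (c : ι → K), (∀ i ∈ s, ∀ σ ∈ Γ, σ (c i) = c i) →
      ∑ i ∈ s, c i • b i = 0 → ∀ i ∈ s, c i = 0) : LinearIndependent K b := by
  classical
  refine linearIndependent_iff'.2 fun s => ?_
  induction s using Finset.induction_on with
  | empty => simp
  | insert j s hj ih =>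
    intro c hc
    by_cases e : c j = 0
    · rw [Finset.sum_insert hj, e, zero_smul, zero_add] at hc
      exact fun i m => (Finset.mem_insert.1 m).elim (fun l => l ▸ e) (ih c hc i)
    have h1 : ∑ i ∈ insert j s, ((c j)⁻¹ * c i) • b i = 0 := by
      simp only [mul_smul, ← Finset.smul_sum, hc, smul_zero]
    have h2 := hi _ _ (fun i m σ hσ => ?_) h1 j (Finset.mem_insert_self j s)
    · rw [inv_mul_cancel₀ e] at h2
      exact absurd h2 one_ne_zero
    rcases Finset.mem_insert.1 m with rfl | m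
    · rw [inv_mul_cancel₀ e, map_one]
    refine sub_eq_zero.1 (ih (fun i => σ ((c j)⁻¹ * c i) - (c j)⁻¹ * c i) ?_ i m)
    have h3 := congrArg (a σ) h1
    rw [h.sum hσ, h.zero hσ, ← h1] at h3
    simp only [h.smul σ hσ, hb _ σ hσ, Finset.sum_insert hj, inv_mul_cancel₀ e, map_one,
      add_right_inj] at h3
    simp only [sub_smul, Finset.sum_sub_distrib, h3, sub_self]

/-- A basis of fixed points of a stable subspace. -/
theorem Sl.basis_sub [Algebra.IsAlgebraic k K] (h : Sl Γ a) (W : Submodule K V)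
    (hW : ∀ σ ∈ Γ, ∀ w ∈ W, a σ w ∈ W) [FiniteDimensional K W] {ι : Type} [Fintype ι]
    (hι : Fintype.card ι = Module.finrank K W) :
    ∃ b : Module.Basis ι K W, ∀ i, (b i).1 ∈ Fx Γ a := by
  obtain ⟨s, s1, s2, s3⟩ := exists_linearIndependent K {w : W | w.1 ∈ Fx Γ a}
  have e : ⊤ ≤ Submodule.span K (Set.range (Subtype.val : s → W)) := fun v _ => by
    rw [Subtype.range_coe, s2]
    refine (Submodule.apply_mem_span_image_iff_mem_span W.injective_subtype).1
      (Submodule.span_mono ?_ (h.mem_span W hW v.2))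
    exact fun w hw => ⟨⟨w, hw.2⟩, hw.1, rfl⟩
  let b := Module.Basis.mk s3 e
  have := FiniteDimensional.fintypeBasisIndex b
  refine ⟨b.reindex (Fintype.equivOfCardEq ((Module.finrank_eq_card_basis b).symm.trans hι.symm)),
    fun i => ?_⟩
  rw [Module.Basis.reindex_apply, Module.Basis.mk_apply]
  exact s1 (Subtype.prop _)

/-- A basis of fixed points. -/
theorem Sl.basis [Algebra.IsAlgebraic k K] (h : Sl Γ a) [FiniteDimensional K V] {ι : Type}
    [Fintype ι] (hι : Fintype.card ι = Module.finrank K V) :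
    ∃ b : Module.Basis ι K V, ∀ i, b i ∈ Fx Γ a := by
  obtain ⟨b, hb⟩ := h.basis_sub ⊤ (fun _ _ _ _ => trivial) (hι.trans (finrank_top K V).symm)
  exact ⟨b.map Submodule.topEquiv, hb⟩

/-- Elements fixed by the whole Galois group. -/
theorem fixed_top [IsGalois k K] {c : K} (h : ∀ σ : K ≃ₐ[k] K, σ c = c) :
    ∃ x : k, algebraMap k K x = c := (InfiniteGalois.mem_bot_iff_fixed c).2 h

/-- Elements fixed by the Galois group over an intermediate field. -/
theorem fixed_sub [IsGalois k K] (L : IntermediateField k K) {c : K}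
    (h : ∀ σ ∈ L.fixingSubgroup, σ c = c) : c ∈ L := by
  rw [← InfiniteGalois.fixedField_fixingSubgroup L]
  exact fun σ => h σ.1 σ.2

/-! ### Density -/

/-- The function `f` is a polynomial on every line. -/
def LP (f : V → K) : Prop := ∀ x y : V, ∃ p : K[X], ∀ t : K, f (x + t • y) = p.eval t

section

variable {f g : V → K} {U : Type} [AddCommGroup U] [Module K U]

theorem LP.const (c : K) : LP fun _ : V => c := fun _ _ => ⟨C c, fun _ => by simp⟩

theorem LP.lin (l : V →ₗ[K] K) : LP l := fun x y => 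
  ⟨C (l x) + C (l y) * X, fun t => by simp [mul_comm t]⟩

theorem LP.add (hf : LP f) (hg : LP g) : LP fun x => f x + g x := fun x y => by
  obtain ⟨p, hp⟩ := hf x y
  obtain ⟨q, hq⟩ := hg x y
  exact ⟨p + q, fun t => by simp only [hp, hq, eval_add]⟩

theorem LP.mul (hf : LP f) (hg : LP g) : LP fun x => f x * g x := fun x y => by
  obtain ⟨p, hp⟩ := hf x y
  obtain ⟨q, hq⟩ := hg x y
  exact ⟨p * q, fun t => by simp only [hp, hq, eval_mul]⟩

theorem LP.neg (hf : LP f) : LP fun x => -f x := fun x y =>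
  (hf x y).elim fun p hp => ⟨-p, fun t => by simp only [hp, eval_neg]⟩

theorem LP.sub (hf : LP f) (hg : LP g) : LP fun x => f x - g x := by
  simpa only [sub_eq_add_neg] using hf.add hg.neg

theorem LP.pow (hf : LP f) (n : ℕ) : LP fun x => f x ^ n := fun x y =>
  (hf x y).elim fun p hp => ⟨p ^ n, fun t => by simp only [hp, eval_pow]⟩

theorem LP.sum {ι : Type} (s : Finset ι) {f : ι → V → K} (hf : ∀ i ∈ s, LP (f i)) :
    LP fun x => ∑ i ∈ s, f i x := by
  classical
  induction s using Finset.induction_on with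
  | empty => simpa using LP.const 0
  | insert j s hj ih =>
    simpa only [Finset.sum_insert hj] using (hf j (Finset.mem_insert_self j s)).add
      (ih fun i m => hf i (Finset.mem_insert_of_mem m))

theorem LP.prod {ι : Type} (s : Finset ι) {f : ι → V → K} (hf : ∀ i ∈ s, LP (f i)) :
    LP fun x => ∏ i ∈ s, f i x := by
  classical
  induction s using Finset.induction_on with
  | empty => simpa using LP.const 1
  | insert j s hj ih =>
    simpa only [Finset.prod_insert hj] using (hf j (Finset.mem_insert_self j s)).mul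
      (ih fun i m => hf i (Finset.mem_insert_of_mem m))

theorem LP.comp (hf : LP f) (x0 : V) (l : U →ₗ[K] V) : LP fun u => f (x0 + l u) := fun x y =>
  (hf (x0 + l x) (l y)).imp fun _ hp t => by simp only [map_add, map_smul, ← hp, add_assoc]

theorem LP.comp' (hf : LP f) (l : U →ₗ[K] V) : LP fun u => f (l u) := by
  simpa only [zero_add] using hf.comp 0 l

theorem LP.mv {J : Type} (p : MvPolynomial J K) {f : J → V → K} (hf : ∀ j, LP (f j)) :
    LP fun x => MvPolynomial.eval (fun j => f j x) p := by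
  induction p using MvPolynomial.induction_on with
  | C c => simpa using LP.const c
  | add p q hp hq => simpa using hp.add hq
  | mul_X p j hp => simpa using hp.mul (hf j)

theorem LP.det {n : Type} [Fintype n] [DecidableEq n] {M : V → Matrix n n K}
    (h : ∀ i j, LP fun x => M x i j) : LP fun x => (M x).det := by
  simp only [det_apply']
  exact LP.sum _ fun σ _ => (LP.const _).mul (LP.prod _ fun i _ => h _ _)

theorem LP.proj {J : Type} (j : J) : LP fun x : J → K => x j :=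
  LP.lin (LinearMap.proj (R := K) (φ := fun _ => K) j)

theorem LP.entry {m n : Type} (i : m) (j : n) : LP fun x : Matrix m n K => x i j :=
  LP.lin (Matrix.entryLinearMap K K i j)

theorem LP.ne_mul [Infinite K] (hf : LP f) (hg : LP g) (h1 : ∃ x, f x ≠ 0) (h2 : ∃ x, g x ≠ 0) :
    ∃ x, f x * g x ≠ 0 := by
  obtain ⟨x, hx⟩ := h1
  obtain ⟨y, hy⟩ := h2
  obtain ⟨p, hp⟩ := hf x (y - x)
  obtain ⟨q, hq⟩ := hg x (y - x)
  have p0 : p ≠ 0 := fun e => hx (by simpa [e] using hp 0)
  have q0 : q ≠ 0 := fun e => hy (by simpa [e] using hq 1)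
  by_contra hc
  refine mul_ne_zero p0 q0 (Polynomial.funext fun t => ?_)
  rw [eval_mul, ← hp, ← hq, eval_zero]
  by_contra e
  exact hc ⟨_, e⟩

theorem LP.ne_prod [Infinite K] {ι : Type} (s : Finset ι) {f : ι → V → K} (hf : ∀ i ∈ s, LP (f i))
    (h : ∀ i ∈ s, ∃ x, f i x ≠ 0) : ∃ x, ∏ i ∈ s, f i x ≠ 0 := by
  classical
  induction s using Finset.induction_on with
  | empty => exact ⟨0, by simp⟩
  | insert j s hj ih =>
    simp only [Finset.prod_insert hj]
    exact (hf j (Finset.mem_insert_self j s)).ne_mul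
      (LP.prod s fun i m => hf i (Finset.mem_insert_of_mem m)) (h j (Finset.mem_insert_self j s))
      (ih (fun i m => hf i (Finset.mem_insert_of_mem m)) fun i m => h i (Finset.mem_insert_of_mem m))

/-- On a line which contains a nonzero value there are finitely many zeros. -/
theorem LP.fin (hf : LP f) {x y : V} {t0 : K} (h : f (x + t0 • y) ≠ 0) :
    {t : k | f (x + algebraMap k K t • y) = 0}.Finite := by
  obtain ⟨p, hp⟩ := hf x y
  have p0 : p ≠ 0 := fun e => h (by simp [hp, e])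
  refine ((p.rootSet_finite K).preimage (algebraMap k K).injective.injOn).subset fun t ht => ?_
  exact mem_rootSet.2 ⟨p0, (hp _).symm.trans ht⟩

/-- A subset which is a `k`-subspace and spans `V` over `K`. -/
structure Dn (k : Type) [Field k] (K : Type) [Field K] [Algebra k K] {V : Type} [AddCommGroup V]
    [Module K V] (S : Set V) : Prop where
  zero : (0 : V) ∈ S
  add : ∀ x ∈ S, ∀ y ∈ S, x + y ∈ S
  smul : ∀ (t : k), ∀ x ∈ S, algebraMap k K t • x ∈ S
  span : Submodule.span K S = ⊤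

/-- **Density.** -/
theorem Dn.den [Infinite k] {S : Set V} (h : Dn k K S) (hf : LP f) (h0 : ∃ x, f x ≠ 0) :
    ∃ x ∈ S, f x ≠ 0 := by
  by_contra hc
  have k0 : ∀ v ∈ Submodule.span K S, ∀ u, (∀ x ∈ S, f (u + x) = 0) → ∀ c : K,
      ∀ x ∈ S, f (u + c • v + x) = 0 := by
    intro v hv
    induction hv using Submodule.span_induction with
    | mem v hv =>
      intro u hu c x hx
      by_contra e
      rw [add_right_comm] at e
      refine Set.infinite_univ ((hf.fin (k := k) e).subset fun t _ => ?_)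
      show f _ = 0
      rw [add_assoc]
      exact hu _ (h.add _ hx _ (h.smul t v hv))
    | zero => intro u hu c x hx; simpa using hu x hx
    | add v w _ _ h1 h2 =>
      intro u hu c x hx
      simpa only [smul_add, add_assoc] using h2 _ (h1 u hu c) c x hx
    | smul d v _ h1 =>
      intro u hu c x hx
      simpa only [smul_smul] using h1 u hu (c * d) x hx
  obtain ⟨x, hx⟩ := h0
  refine hx ?_
  simpa using k0 x (h.span ▸ trivial) 0 (fun y hy => by
    by_contra e
    exact hc ⟨y, hy, by simpa using e⟩) 1 0 h.zero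

/-- Density for finitely many conditions. -/
theorem Dn.dens [Infinite k] {S : Set V} (h : Dn k K S) {ι : Type} (s : Finset ι)
    {f : ι → V → K} (hf : ∀ i ∈ s, LP (f i)) (h0 : ∀ i ∈ s, ∃ x, f i x ≠ 0) :
    ∃ x ∈ S, ∀ i ∈ s, f i x ≠ 0 := by
  have := Infinite.of_injective _ (algebraMap k K).injective
  obtain ⟨x, hx, e⟩ := h.den (LP.prod s hf) (LP.ne_prod s hf h0)
  exact ⟨x, hx, Finset.prod_ne_zero_iff.1 e⟩

/-- Density near a given point: all but finitely many points of a rational line are good. -/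
theorem Dn.near [Infinite k] {S : Set V} (h : Dn k K S) (hf : LP f) (h0 : ∃ x, f x ≠ 0) (x0 : V) :
    ∃ y ∈ S, {t : k | f (x0 + algebraMap k K t • y) = 0}.Finite := by
  obtain ⟨x, hx⟩ := h0
  obtain ⟨y, hy, e⟩ := h.den (hf.comp x0 LinearMap.id) ⟨x - x0, by simpa using hx⟩
  exact ⟨y, hy, hf.fin (t0 := 1) (by simpa using e)⟩

end

theorem Sl.dn [Algebra.IsAlgebraic k K] (h : Sl Γ a) : Dn k K (Fx Γ a) :=
  ⟨h.zero_mem, fun _ hx _ hy => h.add_mem hx hy,
    fun t _ hx => h.smul_mem (fun σ _ => σ.commutes t) hx, h.span⟩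

/-- The conjugates `(p j x)` of the fixed points `x`, for semilinear surjections `p j` over
automorphisms `σ j` with different restrictions to the fixed field, are dense. -/
theorem Sl.dn_conj [Algebra.IsAlgebraic k K] (h : Sl Γ a) {J : Type} [Fintype J] {U : J → Type}
    [∀ j, AddCommGroup (U j)] [∀ j, Module K (U j)] (σ : J → K ≃ₐ[k] K)
    (hσ : ∀ i j, (∀ x, (∀ τ ∈ Γ, τ x = x) → σ i x = σ j x) → i = j) (p : ∀ j, V → U j)
    (p1 : ∀ j v w, p j (v + w) = p j v + p j w) (p2 : ∀ j (c : K) v, p j (c • v) = σ j c • p j v)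
    (p3 : ∀ j, Function.Surjective (p j)) :
    Dn k K ((fun x j => p j x) '' Fx Γ a) := by
  classical
  have p0 : ∀ j, p j 0 = 0 := fun j => (AddMonoidHom.mk' (p j) (p1 j)).map_zero
  refine ⟨⟨0, h.zero_mem, funext p0⟩, ?_, ?_, eq_top_iff.2 fun u _ => ?_⟩
  · rintro _ ⟨x, hx, rfl⟩ _ ⟨y, hy, rfl⟩
    exact ⟨x + y, h.add_mem hx hy, funext fun j => p1 j x y⟩
  · rintro t _ ⟨x, hx, rfl⟩
    exact ⟨_, h.dn.smul t x hx, funext fun j => (p2 j _ x).trans (by rw [AlgEquiv.commutes]; rfl)⟩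
  by_contra hcon
  obtain ⟨ψ, hψ, hψ0⟩ := Submodule.exists_dual_map_eq_bot_of_notMem hcon inferInstance
  have e : ∀ u : ∀ j, U j, ψ u = ∑ j, ψ (Pi.single j (u j)) := fun u => by
    rw [← map_sum, Finset.univ_sum_single]
  have k1 : ∀ x ∈ Fx Γ a, ∀ j, ψ (Pi.single j (p j x)) = 0 := fun x hx j => by
    refine dedekind
      { carrier := {c | ∀ τ ∈ Γ, τ c = c}
        mul_mem' := fun hc hd τ s => by rw [map_mul, hc τ s, hd τ s]
        one_mem' := fun τ _ => map_one _ } σ hσ Finset.univ (fun j => ψ (Pi.single j (p j x)))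
      (fun c hc => ?_) j (Finset.mem_univ j)
    have := Submodule.mem_map_of_mem (f := ψ) (Submodule.subset_span (R := K)
      (Set.mem_image_of_mem (fun x j => p j x) (h.smul_mem hc hx)))
    rw [hψ0, Submodule.mem_bot, e] at this
    rw [← this]
    exact Finset.sum_congr rfl fun j _ => by
      rw [p2, Pi.single_smul, map_smul, smul_eq_mul, mul_comm]
  have k2 : ∀ j, ∀ x ∈ Submodule.span K (Fx Γ a), ψ (Pi.single j (p j x)) = 0 := fun j x hx => by
    induction hx using Submodule.span_induction with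
    | mem v hv => exact k1 v hv j
    | zero => rw [p0, Pi.single_zero, map_zero]
    | add v w _ _ h1 h2 => rw [p1, Pi.single_add, map_add, h1, h2, add_zero]
    | smul d v _ h1 => rw [p2, Pi.single_smul, map_smul, h1, smul_zero]
  refine hψ ((e u).trans (Finset.sum_eq_zero fun j _ => ?_))
  obtain ⟨x, hx⟩ := p3 j (u j)
  exact hx ▸ k2 j x (h.span ▸ trivial)

end Vale.Agent.P011LD
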